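import Vale.Agent.P192.Tree.Limit
import Vale.Agent.P192.Ends.Periodic

/-!
# Finitely presented periodic groups: tree-like actions, thin ends, bounded activity
-/

namespace Vale.Agent.Results.P192.TreeLikeImages

universe u v

theorem result :
    (∀ (G : Type u) [Group G] [Group.IsFinitelyPresented G], (∀ g : G, IsOfFinOrder g) →
      ∀ (d k : ℕ) (ρ : G →* Equiv.Perm (FreeGroup (Fin d) × Fin k)),
      (∀ g, ∃ R : ℕ, ∀ z, FreeGroup.norm (z.1⁻¹ * (ρ g z).1) ≤ R) →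
      (Set.range fun g => ρ g).Finite) ∧
    (∀ (G : Type u) [Group G] [Group.IsFinitelyPresented G], (∀ g : G, IsOfFinOrder g) →
      ∀ (d : ℕ) (X : Type v) [MulAction (FreeGroup (Fin d)) X],
      (∀ (e : FreeGroup (Fin d)) (x : X), e • x = x → e = 1) →
      ∀ (ρ : G →* Equiv.Perm X),
      (∀ g, ∃ E : Finset (FreeGroup (Fin d)), ∀ x, ∃ e ∈ E, ρ g x = e • x) →
      (Set.range fun g => ρ g).Finite) ∧
    (∀ (G : Type u) [Group G] [Group.IsFinitelyPresented G], (∀ g : G, IsOfFinOrder g) →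
      ∀ (X : Type v) (T : Equiv.Perm X) (ρ : G →* Equiv.Perm X),
      (∀ g, ∃ R : ℕ, ∀ x, ∃ m : ℤ, |m| ≤ R ∧ ρ g x = (T ^ m) x) →
      (Set.range fun g => ρ g).Finite) ∧
    (∀ (G : Type u) [Group G] [Group.IsFinitelyPresented G], (∀ g : G, IsOfFinOrder g) →
      ∀ (X : Type v) (ρ : G →* Equiv.Perm X), (∀ x y, ∃ g, ρ g x = y) →
      ∀ A : ℕ → Set X, Antitone A → (∀ t, (A t).Nonempty) → (∀ x, ∃ t, x ∉ A t) →
      ¬ ∀ g, ∃ w : ℕ, ∀ t, {y | y ∈ A t ∧ ρ g y ∉ A t}.encard ≤ (w : ℕ∞)) ∧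
    (∀ (G : Type u) [Group G] [Group.IsFinitelyPresented G], (∀ g : G, IsOfFinOrder g) →
      ∀ (d : ℕ → ℕ) (ρ : G →* Equiv.Perm ((k : ℕ) → Fin (d k))),
      (∀ g (x y : (k : ℕ) → Fin (d k)) t, (∀ k < t, x k = y k) → ∀ k < t, ρ g x k = ρ g y k) →
      (∀ g, ∃ K : ℕ, ∀ t, {v : (k : Fin t) → Fin (d k) | ∃ x : (k : ℕ) → Fin (d k),
        (∀ k : Fin t, x k = v k) ∧ ∃ k, t ≤ k ∧ ρ g x k ≠ x k}.encard ≤ (K : ℕ∞)) →
      ∀ ξ, (Set.range fun g => ρ g ξ).Finite) :=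
  ⟨fun _ _ _ hG d k ρ hb => Vale.Agent.P192.Tree.finite_image_tree hG d k ρ hb,
    fun _ _ _ hG _ _ _ hfree ρ hb => Vale.Agent.P192.Tree.finite_image_free hG hfree ρ hb,
    fun _ _ _ hG _ T ρ hb => Vale.Agent.P192.finite_image_full_group hG T ρ hb,
    fun _ _ _ hG _ ρ ht A ha hn he hc =>
      Vale.Agent.P192.Ends.no_thin_end hG ρ ht A ha hn he hc,
    fun _ _ _ hG d ρ ht ha ξ => Vale.Agent.P192.Ends.finite_boundary_orbit hG d ρ ht ha ξ⟩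

end Vale.Agent.Results.P192.TreeLikeImages
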